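import Mathlib

namespace Vale.Agent.P322

open Finset

/-- the sign attached to a bit -/
def sg (b : Bool) : ℝ := if b then 1 else -1

lemma sg_not (b : Bool) : sg (!b) = - sg b := by
  cases b <;> simp [sg]

lemma sg_sq (b : Bool) : sg b * sg b = 1 := by
  cases b <;> simp [sg]

lemma sg_abs (b : Bool) : |sg b| = 1 := by
  cases b <;> simp [sg]

variable {n : ℕ}

/-- flipping the `i`-th bit -/
def flip (i : Fin n) (x : Fin n → Bool) : Fin n → Bool := Function.update x i (!x i)

lemma flip_invol (i : Fin n) : Function.Involutive (flip i) := by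
  intro x
  funext j
  unfold flip
  by_cases h : j = i
  · subst h; simp
  · simp [Function.update_of_ne h]

lemma flip_apply_self (i : Fin n) (x : Fin n → Bool) : flip i x i = !x i := by
  simp [flip]

lemma flip_apply_ne (i j : Fin n) (h : j ≠ i) (x : Fin n → Bool) : flip i x j = x j := by
  simp [flip, Function.update_of_ne h]

lemma sum_flip_zero (i : Fin n) (h : (Fin n → Bool) → ℝ) (hh : ∀ x, h (flip i x) = h x) :
    ∑ x, h x * sg (x i) = 0 := by
  set p : Equiv.Perm (Fin n → Bool) := Function.Involutive.toPerm (flip i) (flip_invol i) with hp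
  have e := Equiv.sum_comp p (fun x => h x * sg (x i))
  have e2 : ∀ x, h (p x) * sg ((p x) i) = - (h x * sg (x i)) := by
    intro x
    show h (flip i x) * sg (flip i x i) = _
    rw [hh, flip_apply_self, sg_not]
    ring
  rw [Finset.sum_congr rfl (fun x _ => e2 x), Finset.sum_neg_distrib] at e
  linarith

lemma sum_sg (i : Fin n) : ∑ x : Fin n → Bool, sg (x i) = 0 := by
  have := sum_flip_zero i (fun _ => 1) (fun _ => rfl)
  simpa using this

lemma sum_sg_mul (i j : Fin n) :
    ∑ x : Fin n → Bool, sg (x i) * sg (x j) = if i = j then (2 : ℝ) ^ n else 0 := by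
  by_cases h : i = j
  · subst h
    simp [sg_sq]
  · rw [if_neg h]
    have := sum_flip_zero j (fun x => sg (x i)) (fun x => by rw [flip_apply_ne j i h])
    simpa using this

/-- Bessel's inequality for the constant and the coordinate characters. -/
lemma bessel (g : (Fin n → Bool) → ℝ) (hg : ∀ x, g x * g x = g x) :
    ∑ i, (∑ x, g x * sg (x i)) ^ 2 + (∑ x, g x) ^ 2 ≤ (2 : ℝ) ^ n * ∑ x, g x := by
  set M : ℝ := (2 : ℝ) ^ n with hM
  set A : ℝ := ∑ x, g x with hA
  set D : Fin n → ℝ := fun i => ∑ x, g x * sg (x i) with hD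
  set L : (Fin n → Bool) → ℝ := fun x => ∑ i, D i * sg (x i) with hL
  have hMpos : 0 < M := by positivity
  have hcard : ∑ _x : Fin n → Bool, (1 : ℝ) = M := by
    simp [hM]
  have hL1 : ∑ x, L x = 0 := by
    simp only [hL]
    rw [Finset.sum_comm]
    apply Finset.sum_eq_zero
    intro i _
    rw [← Finset.mul_sum, sum_sg, mul_zero]
  have hL2 : ∑ x, g x * L x = ∑ i, D i ^ 2 := by
    simp only [hL]
    simp_rw [Finset.mul_sum]
    rw [Finset.sum_comm]
    apply Finset.sum_congr rfl
    intro i _
    have : ∀ x, g x * (D i * sg (x i)) = D i * (g x * sg (x i)) := fun x => by ring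
    rw [Finset.sum_congr rfl (fun x _ => this x), ← Finset.mul_sum]
    simp only [hD]
    ring
  have hL3 : ∑ x, L x * L x = M * ∑ i, D i ^ 2 := by
    simp only [hL]
    simp_rw [Finset.sum_mul_sum]
    rw [Finset.sum_comm]
    rw [Finset.mul_sum]
    apply Finset.sum_congr rfl
    intro i _
    rw [Finset.sum_comm]
    have : ∀ j, ∑ x : Fin n → Bool, D i * sg (x i) * (D j * sg (x j))
        = D i * D j * (if i = j then M else 0) := by
      intro j
      rw [← sum_sg_mul, Finset.mul_sum]
      apply Finset.sum_congr rfl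
      intro x _
      ring
    rw [Finset.sum_congr rfl (fun j _ => this j)]
    simp
    ring
  have hsq : 0 ≤ ∑ x, (M * g x - A - L x) ^ 2 := Finset.sum_nonneg (fun x _ => sq_nonneg _)
  have hexp : ∑ x, (M * g x - A - L x) ^ 2
      = M ^ 2 * A - 2 * M * A * A - 2 * M * (∑ i, D i ^ 2) + A ^ 2 * M + 2 * A * 0
        + M * ∑ i, D i ^ 2 := by
    have e : ∀ x, (M * g x - A - L x) ^ 2
        = M ^ 2 * g x - 2 * M * A * g x - 2 * M * (g x * L x) + A ^ 2 * 1 + 2 * A * L x
          + L x * L x := by
      intro x
      have := hg x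
      have e' : (M * g x - A - L x) ^ 2 = M ^ 2 * (g x * g x) - 2 * M * A * g x
          - 2 * M * (g x * L x) + A ^ 2 * 1 + 2 * A * L x + L x * L x := by ring
      rw [e', this]
    rw [Finset.sum_congr rfl (fun x _ => e x)]
    simp only [Finset.sum_add_distrib, Finset.sum_sub_distrib, ← Finset.mul_sum]
    rw [hL1, hL2, hL3, hcard]
  rw [hexp] at hsq
  have : 0 ≤ M * (M * A - A ^ 2 - ∑ i, D i ^ 2) := by nlinarith
  have h2 := nonneg_of_mul_nonneg_right this hMpos
  linarith

/-- marginalising a product weight on all coordinates but one -/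
lemma marginal (w : Fin n → Bool → ℝ) (hw : ∀ j, w j true + w j false = 1) (i : Fin n) (s : Bool) :
    ∑ y : Fin n → Bool, (if y i = s then ∏ j, w j (y j) else 0) = w i s := by
  classical
  have e : ∀ y : Fin n → Bool, (if y i = s then ∏ j, w j (y j) else 0)
      = ∏ j, (w j (y j) * (if j = i then (if y j = s then 1 else 0) else 1)) := by
    intro y
    rw [Finset.prod_mul_distrib]
    have : ∏ j, (if j = i then (if y j = s then (1 : ℝ) else 0) else 1)
        = if y i = s then 1 else 0 := by
      rw [Finset.prod_eq_single i]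
      · simp
      · intro j _ hj
        simp [hj]
      · simp
    rw [this]
    split_ifs <;> simp
  rw [Finset.sum_congr rfl (fun y _ => e y)]
  have h := (Finset.prod_univ_sum (fun _ : Fin n => (Finset.univ : Finset Bool))
    (fun j v => w j v * (if j = i then (if v = s then (1 : ℝ) else 0) else 1))).symm
  rw [Fintype.piFinset_univ] at h
  rw [h, Finset.prod_eq_single i]
  · cases s <;> simp
  · intro j _ hj
    simp [hj, hw j]
  · simp

end Vale.Agent.P322
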