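import Mathlib

namespace Vale.Agent.P322

open Real Filter Topology

/-- twice the Kullback-Leibler divergence (in nats) of a `(1+t)/2` coin from a fair coin -/
noncomputable def phi (t : ℝ) : ℝ := (1 + t) * log (1 + t) + (1 - t) * log (1 - t)

lemma phi_hasSum {t : ℝ} (h : |t| < 1) :
    HasSum (fun k : ℕ => t ^ (2 * k + 2) / ((2 * (k : ℝ) + 1) * ((k : ℝ) + 1))) (phi t) := by
  have hlt := abs_lt.mp h
  have h1 := (hasSum_log_sub_log_of_abs_lt_one h).mul_left t
  have ht2 : |t ^ 2| < 1 := by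
    rw [abs_pow]
    exact pow_lt_one₀ (abs_nonneg t) h (by norm_num)
  have h2 := hasSum_pow_div_log_of_abs_lt_one ht2
  have h3 := h1.sub h2
  have e1 : log (1 - t ^ 2) = log (1 + t) + log (1 - t) := by
    rw [← log_mul (by linarith) (by linarith)]
    congr 1
    ring
  have e2 : t * (log (1 + t) - log (1 - t)) - -log (1 - t ^ 2) = phi t := by
    rw [e1]
    unfold phi
    ring
  rw [e2] at h3
  have e3 : (fun k : ℕ => t ^ (2 * k + 2) / ((2 * (k : ℝ) + 1) * ((k : ℝ) + 1)))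
      = fun b : ℕ => t * (2 * (1 / (2 * (b : ℝ) + 1)) * t ^ (2 * b + 1))
        - (t ^ 2) ^ (b + 1) / ((b : ℝ) + 1) := by
    funext k
    have hk0 : (0 : ℝ) ≤ (k : ℝ) := Nat.cast_nonneg k
    have hk1 : (2 * (k : ℝ) + 1) ≠ 0 := by linarith
    have hk2 : ((k : ℝ) + 1) ≠ 0 := by linarith
    have e4 : (t ^ 2) ^ (k + 1) = t ^ (2 * k + 2) := by ring
    have e5 : t * (2 * (1 / (2 * (k : ℝ) + 1)) * t ^ (2 * k + 1))
        = 2 * t ^ (2 * k + 2) / (2 * (k : ℝ) + 1) := by
      field_simp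
      ring
    rw [e4, e5]
    field_simp
    ring
  rw [e3]
  exact h3

lemma phi_continuous : Continuous phi := by
  unfold phi
  have h := Real.continuous_mul_log
  exact (h.comp (continuous_const.add continuous_id)).add
    (h.comp (continuous_const.sub continuous_id))

lemma phi_mul_le_of_lt {r u : ℝ} (hr0 : 0 ≤ r) (hr1 : r < 1) (hu : |u| ≤ 1) :
    phi (r * u) ≤ u ^ 2 * phi r := by
  have hr : |r| < 1 := by rw [abs_of_nonneg hr0]; exact hr1
  have hru : |r * u| < 1 := by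
    rw [abs_mul]
    calc |r| * |u| ≤ |r| * 1 := mul_le_mul_of_nonneg_left hu (abs_nonneg r)
      _ < 1 := by linarith
  have h1 := phi_hasSum hru
  have h2 := (phi_hasSum hr).mul_left (u ^ 2)
  apply hasSum_le _ h1 h2
  intro k
  have hden : 0 < (2 * (k : ℝ) + 1) * ((k : ℝ) + 1) := by positivity
  rw [← mul_div_assoc]
  apply div_le_div_of_nonneg_right _ hden.le
  have hu2 : u ^ 2 ≤ 1 := by
    have := sq_le_one_iff_abs_le_one u
    exact this.mpr hu
  have e : (r * u) ^ (2 * k + 2) = (u ^ 2) * (r ^ (2 * k + 2) * (u ^ 2) ^ k) := by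
    ring
  rw [e]
  apply mul_le_mul_of_nonneg_left _ (sq_nonneg u)
  have h3 : (u ^ 2) ^ k ≤ 1 := pow_le_one₀ (sq_nonneg u) hu2
  have h4 : 0 ≤ r ^ (2 * k + 2) := by positivity
  nlinarith

lemma phi_mul_le {r u : ℝ} (hr0 : 0 ≤ r) (hr1 : r ≤ 1) (hu : |u| ≤ 1) :
    phi (r * u) ≤ u ^ 2 * phi r := by
  rcases lt_or_eq_of_le hr1 with h | h
  · exact phi_mul_le_of_lt hr0 h hu
  · subst h
    -- limit r -> 1 from the left
    have hc1 : Tendsto (fun r : ℝ => phi (r * u)) (𝓝[<] 1) (𝓝 (phi (1 * u))) :=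
      ((phi_continuous.comp (continuous_id.mul continuous_const)).tendsto 1).mono_left
        nhdsWithin_le_nhds
    have hc2 : Tendsto (fun r : ℝ => u ^ 2 * phi r) (𝓝[<] 1) (𝓝 (u ^ 2 * phi 1)) :=
      ((continuous_const.mul phi_continuous).tendsto 1).mono_left nhdsWithin_le_nhds
    apply le_of_tendsto_of_tendsto hc1 hc2
    have : Set.Ioo (0 : ℝ) 1 ∈ 𝓝[<] (1 : ℝ) := Ioo_mem_nhdsLT (by norm_num)
    filter_upwards [this] with r hr
    exact phi_mul_le_of_lt hr.1.le hr.2 hu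

lemma phi_nonneg {r : ℝ} (hr0 : 0 ≤ r) (hr1 : r ≤ 1) : 0 ≤ phi r := by
  rcases lt_or_eq_of_le hr1 with h | h
  · have hr : |r| < 1 := by rw [abs_of_nonneg hr0]; exact h
    apply (phi_hasSum hr).nonneg
    intro k
    positivity
  · subst h
    unfold phi
    have : 0 ≤ log (1 + 1) := log_nonneg (by norm_num)
    simp
    positivity

end Vale.Agent.P322
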